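import Vale.Agent.P241GR.C
import Vale.Agent.P241.H32.GFCProps
import Vale.Agent.P241.H585.Cone

/-!
# P241G, row C4 (compact generation)
-/

open CategoryTheory MonoidalCategory Limits Pretriangulated Preadditive
open Functor.LaxMonoidal

noncomputable section

namespace Vale.Agent.P241GF

open P251.H P251.St P241.St P241GA P241GA.GIn P241GR P251.G P251.G.LC
open P251.H.GS.StabInput
open P241.Geo (xt gcone gbase gk gj eqv_gbase eqv_gk eqv_gj)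

universe v' u u'

variable {G : Type} [Group G] [Finite G] {M : Type u} [Category.{0} M] [MonoidalCategory M]
  [SymmetricCategory M] [MonoidalClosed M] [HasZeroMorphisms M] [HasColimitsOfSize.{0, 0} M]
  [GIn G M]

/-- the finite objects of the model -/
def FinM (A : M) : Prop :=
  ∃ (n : ℕ) (K : GSpace G), GFC G K ∧ Nonempty (A ≅ (TF M n).obj (gl K))

theorem FinM.susp {A : M} (h : FinM A) : FinM (S M ⊗ A) := by
  obtain ⟨n, K, hK, ⟨e⟩⟩ := h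
  exact ⟨n, xt K Rr, P241.H32.gfc_line hK, ⟨whiskerLeftIso _ e ≪≫ β_ _ _ ≪≫ xtIso M n K Rr⟩⟩

theorem FinM.desusp (i1 : I1 G) {A : M} (h : FinM A) : FinM ((GS.StabInput.L : M) ⊗ A) := by
  obtain ⟨n, K, hK, ⟨e⟩⟩ := h
  exact ⟨n + 1, (redS G).prod K, P241.H32.gfc_prod i1 hK, ⟨whiskerLeftIso _ e ≪≫ lIso M n _ ≪≫
    (TF M (n + 1)).mapIso (glProd (redS G) K)⟩⟩

theorem finM_gen (i1 : I1 G) (i : Subgroup G × List Bool) : FinM (gen M i) := by
  obtain ⟨H, w⟩ := i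
  induction w with
  | nil => exact ⟨0, cell G H 0, .cell H 0, ⟨Iso.refl _⟩⟩
  | cons b w ih =>
    cases b
    · exact ih.desusp i1
    · exact ih.susp

theorem isPushout_TF (n : ℕ) {A B C D : LG G} (i : A ⟶ B) (f : A ⟶ C) (g : B ⟶ D) (k : C ⟶ D)
    (hi : Function.Injective (app i.hom)) (h : IsPushout i.hom f.hom g.hom k.hom) :
    IsPushout ((TF M n).map i) ((TF M n).map f) ((TF M n).map g) ((TF M n).map k) := by
  induction n with
  | zero => exact GIn.pushout i f g k hi h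
  | succ n ih => exact GS.StabInput.isPushout_whiskerLeft (F : M) ih

theorem base_xtIso (n : ℕ) (K : GSpace G) :
    GS.StabInput.coneBase ((TF M n).obj (gl K)) ≫ (xtIso M n K Hh).hom =
      (TF M n).map (glMap (gbase K) (eqv_gbase K)) := by
  have h : glMap (gbase K) (eqv_gbase K) = (ρ_ (gl K)).inv ≫ gl K ◁ (ε (triv LC G) ≫
      (triv LC G).map (point (X := HH) (0 : NNReal))) ≫ (glXt K Hh).hom :=
    Action.hom_ext _ _ (LC.hom_ext fun _ => rfl)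
  change ((ρ_ _).inv ≫ (TF M n).obj (gl K) ◁ ((ε (JG M) ≫ (JG M).map (ε (triv LC G))) ≫
    (JG M).map ((triv LC G).map (point (X := HH) (0 : NNReal))))) ≫ (tfR M n _ _).hom ≫
      (TF M n).map (glXt K Hh).hom = _
  rw [h, Category.assoc (ε (JG M)), ← Functor.map_comp, MonoidalCategory.whiskerLeft_comp,
    Category.assoc, Category.assoc, tfR_right_assoc, Functor.map_comp, Functor.map_comp,
    ← tfR_unit]
  simp only [Category.assoc]

theorem isPushout_cone (n : ℕ) {A B : GSpace G} (f : gl A ⟶ gl B) :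
    IsPushout (GS.StabInput.coneBase ((TF M n).obj (gl A))) ((TF M n).map f)
      ((xtIso M n A Hh).hom ≫ (TF M n).map (glMap _ (eqv_gk f.hom (eqv_hom f))))
      ((TF M n).map (glMap _ (eqv_gj f.hom (eqv_hom f)))) := by
  refine (isPushout_TF (M := M) n (glMap _ (eqv_gbase A)) f (glMap _ (eqv_gk f.hom (eqv_hom f)))
    (glMap _ (eqv_gj f.hom (eqv_hom f))) (P241.Geo.injective_gbase A)
    (P241.Geo.isPushout_gcone f.hom (eqv_hom f))).of_iso (Iso.refl _) (xtIso M n A Hh).symm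
    (Iso.refl _) (Iso.refl _) ?_ ?_ ?_ ?_
  · rw [← base_xtIso, Iso.symm_hom, Category.assoc, Iso.hom_inv_id, Category.comp_id]
    exact (Category.id_comp _).symm
  · exact (Category.comp_id _).trans (Category.id_comp _).symm
  · exact (Category.comp_id _).trans (Iso.inv_hom_id_assoc _ _).symm
  · exact (Category.comp_id _).trans (Category.id_comp _).symm

variable {C : Type u'} [Category.{v'} C] {Q : M ⥤ C} [Preadditive C] [HasZeroObject C]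
  [HasShift C ℤ] [∀ n : ℤ, (shiftFunctor C n).Additive] [Pretriangulated C]

theorem shift_ind (a3 : A3 Q) (P : M → Prop) (h1 : ∀ A, P A → P (S M ⊗ A))
    (h2 : ∀ A, P A → P ((GS.StabInput.L : M) ⊗ A)) {A : M} (h : P A) (n : ℤ) :
    ∃ A', P A' ∧ Nonempty ((Q.obj A)⟦n⟧ ≅ Q.obj A') := by
  induction n using Int.induction_on with
  | zero => exact ⟨A, h, ⟨(shiftFunctorZero C ℤ).app _⟩⟩
  | succ n ih =>
    obtain ⟨A', hA, ⟨e⟩⟩ := ih
    obtain ⟨e'⟩ := a3.susp A'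
    exact ⟨_, h1 _ hA, ⟨(shiftFunctorAdd C (n : ℤ) 1).app _ ≪≫
      (shiftFunctor C (1 : ℤ)).mapIso e ≪≫ e'.symm⟩⟩
  | pred n ih =>
    obtain ⟨A', hA, ⟨e⟩⟩ := ih
    obtain ⟨e'⟩ := a3.desusp A'
    exact ⟨_, h2 _ hA, ⟨(shiftFunctorAdd' C (-n : ℤ) (-1) (-n - 1) (by ring)).app _ ≪≫
      (shiftFunctor C (-1 : ℤ)).mapIso e ≪≫ e'.symm⟩⟩

theorem c4 [IsTriangulated C] [HasCoproducts.{0} C] (i1 : I1 G) (c1 : C1 M) (c3 : C3 Q)
    (a1 : A1 (GG M) Q) (a2 : A2 (GG M) Q) (a3 : A3 Q) : C4 Q where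
  sh i n := by
    obtain ⟨A, ⟨j, ⟨e⟩⟩, ⟨e'⟩⟩ := shift_ind a3 (GG M) (fun _ => IsTest.susp) (fun _ => IsTest.desusp)
      ⟨i, ⟨Iso.refl _⟩⟩ n
    exact ⟨j, ⟨e' ≪≫ Q.mapIso e⟩⟩
  small i X := a1.small (Src.of_test ⟨i, ⟨Iso.refl _⟩⟩) X
  gen Z h := a2.gen Z fun A ⟨i, ⟨e⟩⟩ f => by
    rw [← (Q.mapIso e).hom_inv_id_assoc f, h i (_ ≫ f), comp_zero]
  mem i := by
    obtain ⟨n, K, hK, ⟨e⟩⟩ := finM_gen (M := M) i1 i
    exact ⟨n, K, hK, ⟨Q.mapIso e⟩⟩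
  zero := by
    refine ⟨_, ⟨0, GSpace.triv G Em, .empty, ⟨Iso.refl _⟩⟩, ?_⟩
    have h : IsZero ((TF M 0).obj (gl (GSpace.triv G Em))) :=
      IsZero.of_iso (GIn.isZero_empty (M := M)) ((JG M).mapIso (glTriv G Em)).symm
    rw [IsZero.iff_id_eq_zero, ← Q.map_id, h.eq_of_src (𝟙 _) 0, a2.zero]
  cpt := fun ⟨n, K, hK, ⟨e⟩⟩ => (a2.cpt (c1.src n K hK) (finFactor_pw M n K)).of_iso e.symm
  iso e := fun ⟨n, K, hK, ⟨e'⟩⟩ => ⟨n, K, hK, ⟨e.symm ≪≫ e'⟩⟩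
  shift m := fun ⟨n, K, hK, ⟨e⟩⟩ => by
    obtain ⟨A, ⟨n', K', hK', ⟨e1⟩⟩, ⟨e2⟩⟩ := shift_ind a3 FinM (fun _ => FinM.susp)
      (fun _ => FinM.desusp i1) ⟨n, K, hK, ⟨Iso.refl _⟩⟩ m
    exact ⟨n', K', hK', ⟨(shiftFunctor C m).mapIso e ≪≫ e2 ≪≫ Q.mapIso e1⟩⟩
  cone {X Y Z} f g h D hX hY := by
    obtain ⟨n, K, K', φ, θ, θ', hK, hK', hf⟩ := c3 X Y hX hY f
    obtain ⟨h', D'⟩ := a3.cone _ _ _ (isPushout_cone (M := M) n φ)
    obtain ⟨e, -⟩ := exists_iso_of_arrow_iso _ _ D D' (Arrow.isoMk θ θ' hf.symm)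
    exact ⟨n, _, P241.Geo.gfc_gcone' φ.hom (eqv_hom φ) (P241.H32.gfc_line hK')
      (P241.H32.gfc_line (P241.H32.gfc_line hK)), ⟨Triangle.π₃.mapIso e⟩⟩

end Vale.Agent.P241GF
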