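import Vale.Agent.P241GR.C
import Vale.Agent.P241.H32.GFCProps

/-!
# P241G, row C5
-/

open CategoryTheory MonoidalCategory Limits Pretriangulated Preadditive

noncomputable section

namespace Vale.Agent.P241GF

open P251.H P251.St P241.St P241GA P241GA.GIn P241GR
open P251.H.GS.StabInput
open P241.Geo (xt)
open P241Z (IsDeg)

universe v' u u'

variable {G : Type} [Group G] [Finite G] {M : Type u} [Category.{0} M] [MonoidalCategory M]
  [SymmetricCategory M] [MonoidalClosed M] [HasZeroMorphisms M] [HasColimitsOfSize.{0, 0} M]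
  [GIn G M] {C : Type u'} [Category.{v'} C] {Q : M ⥤ C}

theorem exists_stk (a : ℕ) (K : GSpace G) (k k' : ℕ) :
    ∃ t : (TF M (a + (k + k'))).obj (gl (sp K (k + k'))) ⟶
      pwM k' ((TF M (a + k)).obj (gl (sp K k))),
      t ≫ tkM k' _ ≫ stk M a K k = stk M a K (k + k') := by
  induction k' with
  | zero => exact ⟨𝟙 _, (Category.id_comp _).trans (Category.id_comp _)⟩
  | succ k' ih =>
    obtain ⟨t, ht⟩ := ih
    refine ⟨(csIso M (a + (k + k')) (sp K (k + k'))).inv ≫ U M ◁ t, ?_⟩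
    change (_ ≫ U M ◁ t) ≫ ((lamU M ▷ _ ≫ (λ_ _).hom) ≫ tkM k' _) ≫ _ =
      stb M (a + (k + k')) (sp K (k + k')) ≫ stk M a K (k + k')
    simp only [Category.assoc]
    rw [whisker_exchange_assoc, leftUnitor_naturality_assoc, ht, Iso.inv_comp_eq,
      ← Category.assoc (csIso M _ _).hom, csIso_stb, Category.assoc]

variable [Preadditive C] [HasCoproducts.{0} C]

theorem map_gwl (a2 : A2 (GG M) Q) (a : ℕ) (K : GSpace G) {m : ℕ} {d : Map Rr Rr}
    (hd : IsDeg m d) : Q.map ((TF M a).map (gwl K (toHom d))) = m • 𝟙 _ := by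
  have h := congrArg Q.map (xtIso_gwl M a K (toHom d))
  rw [Q.map_comp, Q.map_comp] at h
  rw [← cancel_epi (Q.map (xtIso M a K Rr).hom), ← h, comp_nsmul, Category.comp_id]
  refine (congrArg (· ≫ Q.map (xtIso M a K Rr).hom) (a2.deg _ m d hd)).trans ?_
  exact (nsmul_comp _ _ _).trans (congrArg (m • ·) (Category.id_comp _))

theorem c5 (c1 : C1 M) (a1 : A1 (GG M) Q) (a2 : A2 (GG M) Q) : C5 Q := by
  intro p X Y f a K hK h
  have hK' := P241.H32.gfc_line hK
  refine ⟨fun y => ?_, fun x hx => ?_⟩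
  · obtain ⟨m, x', hm, hx'⟩ := h.1 (Q.map y)
    obtain ⟨d, hd⟩ := P241Z.exists_isDeg m
    obtain ⟨k, x0, h0⟩ := a1.rep (c1.src a _ hK') X x'
    obtain ⟨e, he⟩ := exists_pwIso M a (xt K Rr) k
    obtain ⟨k', h1⟩ := a1.inj (c1.src (a + k) _ (gfc_sp hK' k)) Y ((e.inv ≫ x0) ≫ f)
      (stk M a _ k ≫ (TF M a).map (gwl K (toHom d)) ≫ y) (by
        rw [← e.eq_inv_comp] at he
        rw [he]
        simp only [Q.map_comp, Category.assoc]
        rw [← h0, Category.assoc, hx', map_gwl a2 a K hd, nsmul_comp, Category.id_comp])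
    obtain ⟨t, ht⟩ := exists_stk (M := M) a (xt K Rr) k k'
    refine ⟨m, d, k + k', t ≫ tkM k' _ ≫ e.inv ≫ x0, hm, hd, ?_⟩
    rw [← ht]
    simpa only [Category.assoc] using h1.comp_left t
  · obtain ⟨m, hm, h0⟩ := h.2 (Q.map x) (by rw [← Q.map_comp, a1.htpy hx, a2.zero])
    obtain ⟨d, hd⟩ := P241Z.exists_isDeg m
    obtain ⟨k, h1⟩ := a1.inj (c1.src a _ hK') X ((TF M a).map (gwl K (toHom d)) ≫ x) 0 (by
      rw [Q.map_comp, map_gwl a2 a K hd, nsmul_comp, Category.id_comp, h0, a2.zero])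
    obtain ⟨e, he⟩ := exists_pwIso M a (xt K Rr) k
    refine ⟨m, d, k, hm, hd, ?_⟩
    have h2 := h1.comp_left e.inv
    rwa [comp_zero, comp_zero, ← he, Category.assoc, e.inv_hom_id_assoc] at h2

end Vale.Agent.P241GF
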