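import Vale.Agent.P241GR.G
import Vale.Agent.P093.N.PLocSp

/-!
# P241G, row G1b
-/

open CategoryTheory MonoidalCategory Limits Pretriangulated Preadditive

namespace Vale.Agent.P241GF

open P241GR P093.PLoc P251.St

theorem g1b (T : SHCat) : G1b T := by
  intro p hp K hK A B g h
  obtain ⟨Z, i, δ, D⟩ := P251.H.exists_cone g
  have h0 : ∀ (k : ℤ) (φ : (𝟙_ T.C)⟦k⟧ ⟶ Z), ∃ m : ℕ, m.Coprime p ∧ m • φ = 0 := by
    intro k φ
    let e : ((𝟙_ T.C)⟦k - 1⟧)⟦(1 : ℤ)⟧ ≅ (𝟙_ T.C)⟦k⟧ :=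
      ((shiftFunctorAdd' T.C (k - 1) 1 k (by simp)).app _).symm
    obtain ⟨x', hx'⟩ := (shiftFunctor T.C (1 : ℤ)).map_surjective (e.hom ≫ φ ≫ δ)
    obtain ⟨m, hm, h1⟩ := (h (k - 1)).2 x' ((shiftFunctor T.C (1 : ℤ)).map_injective (by
      rw [Functor.map_comp, hx', Category.assoc, Category.assoc, D.zero₃₁, comp_zero, comp_zero,
        Functor.map_zero]))
    obtain ⟨y, hy⟩ := D.lift₃ (m • φ) (by
      rw [← cancel_epi e.hom, nsmul_comp, comp_nsmul, ← hx', ← Functor.map_nsmul, h1,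
        Functor.map_zero, comp_zero])
    obtain ⟨m', x, hm', hx⟩ := (h k).1 y
    refine ⟨m' * m, hm'.mul_left hm, ?_⟩
    rw [mul_smul, ← hy, ← nsmul_comp, ← hx, Category.assoc, D.zero₁₂, comp_zero]
  have h1 : P251.S.Acyclic (Sp T.C p) Z := by
    refine P251.T.StableCat.generator _ fun n f => ?_
    obtain ⟨q, g, hq, hg⟩ := exists_lift_of_isCpt (isCpt_sph n) f
    obtain ⟨a, ha, hag⟩ := h0 n g
    refine (isPLocal_Sp_tensor hp.ne_one Z).eq_zero (q := ((a * q : ℕ) : ℤ)) (ha.mul_left hq) ?_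
    rw [Nat.cast_mul, mul_smul, ← hg, ← zsmul_comp, natCast_zsmul, hag, zero_comp]
  have hK' : IsPLocal p K := hK
  have h2 := (hK'.tensor_right Z).isIso_etaX hp.ne_one
  exact (Triangle.isZero₃_iff_isIso₁ _ (P251.S.dist_whiskerLeft K D)).1
    (IsZero.of_iso (h1.tensor_left K) (@asIso _ _ _ _ _ h2))

end Vale.Agent.P241GF
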