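import Vale.Agent.P241GF.Ten
import Vale.Agent.P241GE.Cf
import Vale.Agent.P241GI.Main

/-!
# P241G, row C1 from the two out of three property of `Src`
-/

open CategoryTheory MonoidalCategory Limits Matrix

noncomputable section

namespace Vale.Agent.P241GF

open P251.H P251.St P241.St P241GA P241GA.GIn P241GR
open P251.H.GS.StabInput
open P241.Geo (xt)

universe u

section

variable {M : Type u} [Category.{0} M] [MonoidalCategory M] [SymmetricCategory M]
  [MonoidalClosed M] [HasZeroMorphisms M] [HasColimitsOfSize.{0, 0} M] [GS.StabInput M]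
  {GG : ObjectProperty M}

variable (GG) in
/-- two out of three for `Src` -/
def H23 : Prop := ∀ (A B Q : M) (i : A ⟶ B) (q : B ⟶ Q), HCof i → IsCofibre i q →
  (Src GG A → Src GG B → Src GG Q) ∧ (Src GG B → Src GG Q → Src GG A) ∧
    (Src GG A → Src GG Q → Src GG B)

theorem src_he {A B : M} (a : A ⟶ B) (b : B ⟶ A) (h1 : MHtpy (a ≫ b) (𝟙 A))
    (h2 : MHtpy (b ≫ a) (𝟙 B)) (h : Src GG A) : Src GG B := fun _ _ f hf => by
  have : IsIso ((GS.HM.proj M).map a) := ⟨(GS.HM.proj M).map b, GS.HM.sound h1, GS.HM.sound h2⟩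
  exact ((stab M).bijective_map_comap ((GS.HM.proj M).map a)
    (fun _ => (stab M).coPt.bijective_comap_of_isIso _ _) _).1 (h f hf)

theorem src_U {A : M} (h : Src GG A) : Src GG (U M ⊗ A) :=
  fun _ _ f hf => (map_U_iff A f).2 (h f hf)

variable [IsTest GG]

theorem src_S_iff (A : M) : Src GG (S M ⊗ A) ↔ Src GG A :=
  ⟨fun h _ _ f hf => (map_both_iff (β_ _ _) A f).1 (h _ ((piW_whiskerLeft_S f).2 hf)),
    fun h _ _ f hf => (map_left_iff (Iso.refl _) A f).1 (h _ ((piW_whiskerLeft_L f).2 hf))⟩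

theorem src_L {A : M} (h : Src GG A) : Src GG ((GS.StabInput.L : M) ⊗ A) :=
  fun _ _ f hf => (map_left_iff (β_ _ _) A f).1 (h _ ((piW_whiskerLeft_S f).2 hf))

end

/-- adding a coordinate -/
def cY (Y : Type) [TopologicalSpace Y] (m : ℕ) :
    (Y × (Fin m → ℝ)) × ℝ ≃ₜ Y × (Fin (m + 1) → ℝ) where
  toFun p := (p.1.1, vecCons p.2 p.1.2)
  invFun q := ((q.1, vecTail q.2), q.2 0)
  left_inv _ := rfl
  right_inv q := Prod.ext rfl (cons_head_tail q.2)
  continuous_toFun := (continuous_fst.comp continuous_fst).prodMk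
    (continuous_snd.matrixVecCons (continuous_snd.comp continuous_fst))
  continuous_invFun := (continuous_fst.prodMk (continuous_pi fun i =>
    (continuous_apply (Fin.succ i)).comp continuous_snd)).prodMk
      ((continuous_apply 0).comp continuous_snd)

variable {G : Type} [Group G]

/-- adding a coordinate to a cell -/
def cH (H : Subgroup G) (m : ℕ) :
    (xt (cell G H m) Rr).carrier ≃ₜ (cell G H (m + 1)).carrier := @cY (G ⧸ H) ⊥ m

variable [Finite G] {M : Type u} [Category.{0} M] [MonoidalCategory M]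
  [SymmetricCategory M] [MonoidalClosed M] [HasZeroMorphisms M] [HasColimitsOfSize.{0, 0} M]
  [GIn G M]

theorem src_cell (n : ℕ) (H : Subgroup G) (m : ℕ) :
    Src (GG M) ((TF M n).obj (gl (cell G H m))) ↔ Src (GG M) ((TF M n).obj (gl (cell G H 0))) := by
  induction m with
  | zero => rfl
  | succ m ih =>
    let e : S M ⊗ (TF M n).obj (gl (cell G H m)) ≅ (TF M n).obj (gl (cell G H (m + 1))) :=
      β_ _ _ ≪≫ xtIso M n _ Rr ≪≫ (TF M n).mapIso (glIso (cH H m) fun _ _ => rfl)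
    exact (Iff.trans ⟨src_of_iso e, src_of_iso e.symm⟩ (src_S_iff _)).trans ih

theorem src_orb (H : Subgroup G) : Src (GG M) ((TF M 0).obj (gl (cell G H 0))) :=
  Src.of_test ⟨(H, []), ⟨Iso.refl _⟩⟩

theorem thick (h : H23 (GG M)) (n : ℕ) :
    Thick (fun K : GSpace G => Src (GG M) ((TF M n).obj (gl K))) where
  empty := (h _ _ _ (𝟙 _) 0 (HCof.of_isIso _) (IsCofibre.of_isIso (P241GE.isZero_tf M n) _)).1
    (src_orb ⊤) (src_orb ⊤)
  hequiv _ e hX := by
    obtain ⟨f, g, h1, h2⟩ := P241GE.he_tf M n e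
    exact src_he _ _ h1 h2 hX
  fib s := by
    obtain ⟨i, q, h1, h2⟩ := P241GE.cof_seq M n s
    exact (h _ _ _ _ _ h1 h2).2.1
  ext s := by
    obtain ⟨i, q, h1, h2⟩ := P241GE.cof_seq M n s
    exact (h _ _ _ _ _ h1 h2).2.2
  quot s := by
    obtain ⟨i, q, h1, h2⟩ := P241GE.cof_seq M n s
    exact (h _ _ _ _ _ h1 h2).1

theorem src_one (h : H23 (GG M)) (H : Subgroup G) :
    Src (GG M) ((TF M 1).obj (gl (cell G H 0))) := by
  induction hk : Nat.card H using Nat.strong_induction_on generalizing H with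
  | _ k ih =>
    obtain ⟨m, hm⟩ := P241GI.i2 G _ (thick h 1) H
      (fun V hV m => (src_cell 1 V m).2 (ih _ (hk ▸ hV) V rfl))
      (src_of_iso ((TF M 1).mapIso (glIso (Y := (P241Z.reg G).prod (cell G H 0))
        (Homeomorph.prodComm _ _) fun _ _ => rfl) ≪≫ (csIso M 0 (cell G H 0)).symm)
        (src_U (src_orb H)))
    exact (src_cell 1 H m).1 hm

theorem src_F_gen (h : H23 (GG M)) (i : Subgroup G × List Bool) :
    Src (GG M) ((F : M) ⊗ gen M i) := by
  obtain ⟨H, w⟩ := i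
  have e : ∀ A B : M, (F : M) ⊗ A ⊗ B ≅ A ⊗ F ⊗ B := fun A B =>
    (α_ _ _ _).symm ≪≫ whiskerRightIso (β_ _ _) _ ≪≫ α_ _ _ _
  induction w with
  | nil => exact src_one h H
  | cons b w ih =>
    cases b
    · exact src_of_iso (e _ _) (src_L ih)
    · exact src_of_iso (e _ _) ((src_S_iff _).2 ih)

theorem src_F (h : H23 (GG M)) {A : M} (hA : Src (GG M) A) : Src (GG M) ((F : M) ⊗ A) :=
  fun _ _ f hf => (map_left_iff (β_ _ _ ≪≫ eFV M) A f).1 (hA _ (piW_left (β_ _ _ ≪≫ eFV M)
    (fun _ ⟨i, ⟨e⟩⟩ => src_of_iso (whiskerLeftIso F e) (src_F_gen h i)) f hf))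

theorem src_of (h : H23 (GG M)) (n : ℕ) (K : GSpace G) (hK : GFC G K) :
    Src (GG M) ((TF M n).obj (gl K)) := by
  induction n with
  | succ n ih => exact src_F h ih
  | zero =>
    induction hK with
    | empty => exact (thick h 0).empty
    | cell V m => exact (src_cell 0 V m).2 (src_orb V)
    | hequiv hX e ih => exact (thick h 0).hequiv hX e ih
    | ext hi hq hc hQ hA hC ihA ihC =>
      exact (thick h 0).ext ⟨hA, .ext hi hq hc hQ hA hC, hC, _, _, hi, hq, hc, hQ⟩ ihA ihC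

theorem c1_of (h : H23 (GG M)) : C1 M := c1_of_src (P241GI.i1 G) (src_of h)

end Vale.Agent.P241GF
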