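import Vale.Agent.P241GF.C4
import Vale.Agent.P241GE.C3

/-!
# P241G, the end of row C1
-/

open CategoryTheory MonoidalCategory Limits

noncomputable section

namespace Vale.Agent.P241GF

open P251.H P251.St P241.St P241GA P241GA.GIn P241GR
open P251.H.GS.StabInput

universe u

section

variable {M : Type u} [Category.{0} M] [MonoidalCategory M] [SymmetricCategory M]
  [MonoidalClosed M] [HasZeroMorphisms M] [HasColimitsOfSize.{0, 0} M] [GS.StabInput M]

theorem bij_left {Z Z' : M} (e : Z ⊗ Z' ≅ U M) (A X : GS.HM M) :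
    Function.Bijective (((stab M).left ⟨Z⟩).pi A X) :=
  ((stab M).bijective_left_iff _ _ _).2 (((stab M).aug ⟨Z⟩ ⟨Z'⟩ ((GS.HM.proj M).mapIso e)).bijective₁
    ((stab M).aug ⟨Z'⟩ ⟨Z⟩ ((GS.HM.proj M).mapIso (β_ Z' Z ≪≫ e))) A X)

theorem map_iso_iff {A B : M} (e : A ≅ B) {X Y : M} (f : X ⟶ Y) :
    Function.Bijective (mapM A f) ↔ Function.Bijective (mapM B f) :=
  (stab M).bijective_map_comap ((GS.HM.proj M).map e.hom)
    (fun _ => (stab M).coPt.bijective_comap_of_isIso _ _) _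

theorem map_U_iff (A : M) {X Y : M} (f : X ⟶ Y) :
    Function.Bijective (mapM (U M ⊗ A) f) ↔ Function.Bijective (mapM A f) :=
  (stab M).bijective_map_comap _ ((stab M).bijective_comap_t ⟨A⟩) _

theorem map_both_iff {Z Z' : M} (e : Z ⊗ Z' ≅ U M) (A : M) {X Y : M} (f : X ⟶ Y) :
    Function.Bijective (mapM (Z ⊗ A) (Z ◁ f)) ↔ Function.Bijective (mapM A f) :=
  (stab M).bijective_map_left (bij_left e) (A := ⟨A⟩) ((GS.HM.proj M).map f)

theorem map_left_iff {Z Z' : M} (e : Z ⊗ Z' ≅ U M) (A : M) {X Y : M} (f : X ⟶ Y) :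
    Function.Bijective (mapM A (Z ◁ f)) ↔ Function.Bijective (mapM (Z' ⊗ A) f) :=
  (map_U_iff A _).symm.trans ((map_iso_iff ((α_ Z Z' A).symm ≪≫ whiskerRightIso e A) _).symm.trans
    (map_both_iff e _ f))

variable {GG : ObjectProperty M}

theorem src_of_iso {A B : M} (e : A ≅ B) (h : Src GG B) : Src GG A :=
  fun _ _ f hf => (map_iso_iff e f).2 (h f hf)

theorem src_sm {A X Y : M} (h : Src GG A) {f : X ⟶ Y} (hf : piW GG f) : SM f A ∧ IM f A := by
  have h1 := (P251CI.W_iff (stab M).coPt (fun A => Src GG A.obj)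
    (fun A hA _ _ g hg => (map_U_iff A.obj g).2 (hA g hg)) ((GS.HM.proj M).map f)).1
      (fun A hA => hA f hf) ⟨A⟩ h
  exact ⟨(S0_iff f A).1 h1.1, (I0_iff f A).1 h1.2⟩

open MonoidalClosed in
theorem htpy_curry {V B Y : M} {a b : V ⊗ B ⟶ Y} (h : MHtpy a b) : MHtpy (curry a) (curry b) := by
  obtain ⟨H, h0, h1⟩ := h
  have key : ∀ t, inc t B ≫ curry ((α_ V B (I M)).inv ≫ H) = curry (inc t (V ⊗ B) ≫ H) :=
    fun t => by rw [← curry_natural_left, ← inc_tensor, Category.assoc, Iso.hom_inv_id_assoc]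
  exact ⟨curry ((α_ V B (I M)).inv ≫ H), (key 0).trans (congrArg curry h0),
    (key 1).trans (congrArg curry h1)⟩

open MonoidalClosed in
theorem htpy_uncurry {V B Y : M} {a b : B ⟶ (ihom V).obj Y} (h : MHtpy a b) :
    MHtpy (uncurry a) (uncurry b) := by
  rw [uncurry_eq, uncurry_eq]
  exact (h.whiskerLeft V).comp_right _

open MonoidalClosed in
theorem piW_ihom [IsTest GG] (V : M) (hV : ∀ A, GG A → Src GG (V ⊗ A)) {X Y : M} (f : X ⟶ Y)
    (hf : piW GG f) : piW GG ((ihom V).map f) := by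
  refine (piW_iff_SM GG _).2 fun A hA => ⟨fun y => ?_, fun x x' h => ?_⟩
  · obtain ⟨k, x, hx⟩ := (src_sm (hV A hA) hf).1 (uncurry y)
    obtain ⟨e, he⟩ := P241GE.exists_pw_tensor V A k
    refine ⟨k, curry (e.hom ≫ x), ?_⟩
    have h1 := htpy_curry (hx.comp_left e.hom)
    rwa [← Category.assoc, curry_natural_right, ← Category.assoc, he, curry_natural_left,
      curry_uncurry] at h1
  · have h1 := htpy_uncurry h
    rw [uncurry_natural_right, uncurry_natural_right] at h1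
    obtain ⟨k, hk⟩ := (src_sm (hV A hA) hf).2 _ _ h1
    obtain ⟨e, he⟩ := P241GE.exists_pw_tensor V A k
    have h2 := htpy_curry (hk.comp_left e.hom)
    refine ⟨k, ?_⟩
    rwa [← Category.assoc, ← Category.assoc, he, curry_natural_left, curry_natural_left,
      curry_uncurry, curry_uncurry] at h2

theorem piW_left {Z Z' : M} (e : Z ⊗ Z' ≅ U M) (h : ∀ A, GG A → Src GG (Z' ⊗ A)) {X Y : M}
    (f : X ⟶ Y) (hf : piW GG f) : piW GG (Z ◁ f) :=
  (piW_iff _).2 fun A hA => (map_left_iff e A f).2 (h A hA f hf)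

end

variable {G : Type} [Group G] [Finite G] {M : Type u} [Category.{0} M] [MonoidalCategory M]
  [SymmetricCategory M] [MonoidalClosed M] [HasZeroMorphisms M] [HasColimitsOfSize.{0, 0} M]
  [GIn G M]

variable (M) in
/-- `F ⊗ S^ρ ≅ U` -/
def eFV : (F : M) ⊗ (JG M).obj (Vg G) ≅ U M := (uIso M).symm

theorem c1_of_src (i1 : I1 G)
    (src : ∀ (n : ℕ) (K : GSpace G), GFC G K → Src (GG M) ((TF M n).obj (gl K))) : C1 M := by
  have hF : ∀ A, GG M A → Src (GG M) ((F : M) ⊗ A) := fun A ⟨i, ⟨e⟩⟩ => by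
    obtain ⟨n, K, hK, ⟨e'⟩⟩ := finM_gen (M := M) i1 i
    exact src_of_iso (whiskerLeftIso F (e ≪≫ e')) (src (n + 1) K hK)
  have hV : ∀ A, GG M A → Src (GG M) ((JG M).obj (Vg G) ⊗ A) := fun A ⟨i, ⟨e⟩⟩ => by
    obtain ⟨n, K, hK, ⟨e'⟩⟩ := finM_gen (M := M) i1 i
    exact src_of_iso (whiskerLeftIso _ (e ≪≫ e') ≪≫ tfL M n (Vg G) (gl K) ≪≫
      (TF M n).mapIso (glProd (P241Z.reg G) K)) (src n _ (P241.H32.gfc_prod P241Z.gfc_reg hK))
  exact ⟨src, piW_left (eFV M) hV, piW_left (β_ _ _ ≪≫ eFV M) hF, piW_ihom F hF⟩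

end Vale.Agent.P241GF
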